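import Vale.Agent.P235.XC.H492.X8E
import Vale.Agent.P235.XC.H183.Piece
import Vale.Agent.P235.XC.H531.Core
import Vale.Agent.P235.XC.H237.Mono

/-!
# Line XC with `EdgeIso`, no hypothesis (helper492)
-/

set_option autoImplicit false

namespace Vale.Agent.P235.XC.H492

open SimpleGraph Vale.Agent.P235 Vale.Agent.P235.K5 Vale.Agent.P235.H134 Vale.Agent.P235.H56
open Vale.Agent.P235.K5.H281

theorem piece : PieceStmt := H183.piece H531.core

/-- **Excluding a graph drawn with one crossing**: the connected graphs without a minor `TX r` are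
`EdgeIso K` and have `c₁ ≤ K`. -/
theorem onecross (r : ℕ) : ∃ K : ℝ, 1 ≤ K ∧ ∀ (V : Type) [Finite V] (G : SimpleGraph V),
    G.Connected → ¬ IsMinor (TX r) G → EdgeIso G K ∧ DistortionLE G K := by
  obtain ⟨K, hK1, hK⟩ := x8e piece (max r 2) (le_max_right _ _)
  exact ⟨K, hK1, fun V _ G hG hno => hK V G hG fun h =>
    hno (minor_trans (H237.mono (le_max_left r 2)) h)⟩

/-- a minor of a `TX r` as the excluded minor -/
theorem onecross_minor {W : Type} {H : SimpleGraph W} {r : ℕ} (hH : IsMinor H (TX r)) :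
    ∃ K : ℝ, 1 ≤ K ∧ ∀ (V : Type) [Finite V] (G : SimpleGraph V),
      G.Connected → ¬ IsMinor H G → EdgeIso G K ∧ DistortionLE G K := by
  obtain ⟨K, hK1, hK⟩ := onecross r
  exact ⟨K, hK1, fun V _ G hG hno => hK V G hG fun h => hno (minor_trans hH h)⟩

/-- the minor-closed families which omit a connected minor of a `TX r` -/
theorem onecross_family (F : (V : Type) → SimpleGraph V → Prop) (hF : MinorClosed F)
    (h : ∃ (r : ℕ) (W : Type) (_ : Finite W) (H : SimpleGraph W), H.Connected ∧
      IsMinor H (TX r) ∧ ¬ F W H) :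
    ∃ K : ℝ, 1 ≤ K ∧ ∀ (V : Type) [Finite V] (G : SimpleGraph V), G.Connected → F V G →
      EdgeIso G K ∧ DistortionLE G K := by
  obtain ⟨r, W, hW, H, hH, hm, hFH⟩ := h
  obtain ⟨K, hK1, hK⟩ := onecross_minor hm
  exact ⟨K, hK1, fun V _ G hG hFG => hK V G hG fun h => hFH (minor F hF V W G H hG hH h hFG)⟩

/-- **Everything of the lines EX and XC in terms of minors**: if every connected
quasi-4-connected minor of `G` is planar, or thin, or has no minor `TX r` (so also: no `K₅` minor, no
`K_{3,3}` minor), or is `EdgeIso C`, then `G` is `EdgeIso K` and `c₁(G) ≤ K`. -/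
theorem mix (C : ℝ) (k w t r : ℕ) : ∃ K : ℝ, 1 ≤ K ∧
    ∀ (V : Type) [Finite V] (G : SimpleGraph V), G.Connected →
    (∀ (W : Type) [Finite W] (H : SimpleGraph W), H.Connected → Quasi4 H → IsMinor H G →
      ST.H945.PlaneTw k w t W H ∨ ¬ IsMinor (TX r) H ∨ EdgeIso H C) →
      EdgeIso G K ∧ DistortionLE G K := by
  obtain ⟨K, hK1, hK⟩ := mixX piece C k w t (max r 2) (le_max_right _ _)
  refine ⟨K, hK1, fun V _ G hG h => hK V G hG fun W _ H hH hq hm => ?_⟩
  rcases h W H hH hq hm with h | h | h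
  · exact Or.inl h
  · exact Or.inr (Or.inr (Or.inl fun h' => h (minor_trans (H237.mono (le_max_left r 2)) h')))
  · exact Or.inr (Or.inr (Or.inr h))

end Vale.Agent.P235.XC.H492
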