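import Vale.Agent.P235.XC.H281.X3
import Vale.Agent.P235.K5.H492.Ex4E

/-!
# Graphs without a one-crossing minor are `EdgeIso` (helper492)
-/

set_option autoImplicit false

namespace Vale.Agent.P235.XC.H492

open SimpleGraph Vale.Agent.P235 Vale.Agent.P235.K5 Vale.Agent.P235.H134 Vale.Agent.P235.H56
open Vale.Agent.P235.K5.H281

/-- **[X8], with `EdgeIso`**: the connected graphs without a minor `TX r` are `EdgeIso K` and have
`c₁ ≤ K`. -/
theorem x8e (hP : PieceStmt) (r : ℕ) (hr : 2 ≤ r) : ∃ K : ℝ, 1 ≤ K ∧ ∀ (V : Type) [Finite V]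
    (G : SimpleGraph V), G.Connected → ¬ IsMinor (TX r) G → EdgeIso G K ∧ DistortionLE G K := by
  obtain ⟨w, hw⟩ := hP r hr
  obtain ⟨K, hK1, hK⟩ := K5.H492.mix4e 1 w 0 0
  refine ⟨K, hK1, fun V _ G hG hno => hK V G hG fun W _ H hH hq hm => ?_⟩
  rcases hw W H hq.1 (H281.q4_of_quasi4 hq) (fun h => hno (minor_trans h hm)) with h | h
  · exact Or.inr (Or.inl h.2)
  · exact Or.inl (Or.inr (Or.inl h))

/-- the same in terms of the quasi-4-connected minors: planar, thin, without a minor `K₅` or `TX r`,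
or `EdgeIso C` -/
theorem mixX (hP : PieceStmt) (C : ℝ) (k w t r : ℕ) (hr : 2 ≤ r) : ∃ K : ℝ, 1 ≤ K ∧
    ∀ (V : Type) [Finite V] (G : SimpleGraph V), G.Connected →
    (∀ (W : Type) [Finite W] (H : SimpleGraph W), H.Connected → Quasi4 H → IsMinor H G →
      ST.H945.PlaneTw k w t W H ∨ ¬ IsMinor (⊤ : SimpleGraph (Fin 5)) H ∨ ¬ IsMinor (TX r) H ∨
        EdgeIso H C) →
      EdgeIso G K ∧ DistortionLE G K := by
  obtain ⟨K1, -, hK1⟩ := x8e hP r hr
  obtain ⟨K, hK1', hK⟩ := K5.H492.mix4e (max K1 C) k w t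
  refine ⟨K, hK1', fun V _ G hG h => hK V G hG fun W _ H hH hq hm => ?_⟩
  rcases h W H hH hq hm with h | h | h | h
  · exact Or.inl h
  · exact Or.inr (Or.inl h)
  · exact Or.inr (Or.inr (ST.H626.EdgeIso.mono' (hK1 W H hH h).1 (le_max_left _ _)))
  · exact Or.inr (Or.inr (ST.H626.EdgeIso.mono' h (le_max_right _ _)))

end Vale.Agent.P235.XC.H492
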